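import Vale.Agent.P235.H141.JDefs

/-!
# Large grids contain `hub n r` (helper447)
-/

namespace Vale.Agent.P235.H447

open SimpleGraph Vale.Agent.P235.H134 Vale.Agent.P235.H56 Vale.Agent.P235.H141
open Vale.Agent.P235.H341W (capG)

theorem grid_adj {R : ℕ} {p q : Fin R × Fin R} :
    (grid R).Adj p q ↔ ((p.1.val + 1 = q.1.val ∨ q.1.val + 1 = p.1.val) ∧ p.2.val = q.2.val) ∨
      ((p.2.val + 1 = q.2.val ∨ q.2.val + 1 = p.2.val) ∧ p.1.val = q.1.val) := by
  unfold grid
  rw [boxProd_adj, pathGraph_adj, pathGraph_adj, Fin.ext_iff, Fin.ext_iff]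

/-- the streets -/
def street (R m : ℕ) : Set (Fin R × Fin R) :=
  {p | p.1.val = 0 ∨ m < p.1.val ∨ p.2.val % (m + 1) = 0}

theorem reach_row {R : ℕ} (S : Set (Fin R × Fin R)) (x : Fin R) (h : ∀ y, (x, y) ∈ S)
    (h0 : 0 < R) : ∀ (y : ℕ) (hy : y < R),
    ((grid R).induce S).Reachable ⟨(x, ⟨y, hy⟩), h _⟩ ⟨(x, ⟨0, h0⟩), h _⟩ := by
  intro y
  induction y with
  | zero => intro hy; exact Reachable.refl _
  | succ y ih =>
    intro hy
    refine Reachable.trans (Adj.reachable ?_) (ih (by omega))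
    show (grid R).Adj _ _
    rw [grid_adj]
    right
    exact ⟨Or.inr rfl, rfl⟩

theorem reach_col {R : ℕ} (S : Set (Fin R × Fin R)) (y : Fin R) (h : ∀ x, (x, y) ∈ S)
    (h0 : 0 < R) : ∀ (x : ℕ) (hx : x < R),
    ((grid R).induce S).Reachable ⟨(⟨x, hx⟩, y), h _⟩ ⟨(⟨0, h0⟩, y), h _⟩ := by
  intro x
  induction x with
  | zero => intro hx; exact Reachable.refl _
  | succ x ih =>
    intro hx
    refine Reachable.trans (Adj.reachable ?_) (ih (by omega))
    show (grid R).Adj _ _
    rw [grid_adj]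
    left
    exact ⟨Or.inr rfl, rfl⟩

theorem street_connected (R m : ℕ) (h0 : 0 < R) : ((grid R).induce (street R m)).Connected := by
  have hz : ((⟨0, h0⟩, ⟨0, h0⟩) : Fin R × Fin R) ∈ street R m := Or.inl rfl
  have key : ∀ p : street R m, ((grid R).induce (street R m)).Reachable p ⟨_, hz⟩ := by
    have r0 : ∀ y, ((⟨0, h0⟩, y) : Fin R × Fin R) ∈ street R m := fun y => Or.inl rfl
    have c0 : ∀ x, ((x, ⟨0, h0⟩) : Fin R × Fin R) ∈ street R m := fun x =>
      Or.inr (Or.inr (Nat.zero_mod _))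
    rintro ⟨⟨x, y⟩, hp⟩
    rcases hp with hp | hp | hp
    · have hx : x = ⟨0, h0⟩ := Fin.ext hp
      subst hx
      exact reach_row _ _ r0 h0 y.1 y.2
    · have hr : ∀ y, ((x, y) : Fin R × Fin R) ∈ street R m := fun y => Or.inr (Or.inl hp)
      exact (reach_row _ _ hr h0 y.1 y.2).trans (reach_col _ _ c0 h0 x.1 x.2)
    · have hc : ∀ x, ((x, y) : Fin R × Fin R) ∈ street R m := fun x => Or.inr (Or.inr hp)
      exact (reach_col _ _ hc h0 x.1 x.2).trans (reach_row _ _ r0 h0 y.1 y.2)
  have : Nonempty (street R m) := ⟨⟨_, hz⟩⟩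
  exact ⟨fun a b => (key a).trans (key b).symm⟩

theorem cell_bound {n r : ℕ} (c : Fin n × (Fin r × Fin r)) :
    c.1.val * (r + 1) + (r + 1) ≤ n * (r + 1) := by
  have h : c.1.val + 1 ≤ n := c.1.2
  calc c.1.val * (r + 1) + (r + 1) = (c.1.val + 1) * (r + 1) := by ring
    _ ≤ n * (r + 1) := Nat.mul_le_mul_right _ h

/-- the position of a cell -/
def pos (n r : ℕ) (c : Fin n × (Fin r × Fin r)) :
    Fin (n * (r + 1) + 1) × Fin (n * (r + 1) + 1) :=
  (⟨c.2.1.val + 1, by have := cell_bound c; have := c.2.1.2; omega⟩,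
    ⟨c.1.val * (r + 1) + (c.2.2.val + 1), by have := cell_bound c; have := c.2.2.2; omega⟩)

theorem pos_mod {n r : ℕ} (c : Fin n × (Fin r × Fin r)) :
    (c.1.val * (r + 1) + (c.2.2.val + 1)) % (r + 1) = c.2.2.val + 1 := by
  have := c.2.2.2
  exact Nat.mul_add_mod_of_lt (by omega)

theorem hubStmt : HubStmt := by
  intro n r hr
  refine ⟨n * (r + 1) + 1, by omega, ?_⟩
  set R := n * (r + 1) + 1 with hR
  refine ⟨fun o => o.elim (street R r) (fun c => {pos n r c}), ?_, ?_, ?_⟩
  · rintro (_ | c)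
    · exact street_connected R r (by omega)
    · show ((grid R).induce {pos n r c}).Connected
      have : Nonempty ({pos n r c} : Set (Fin R × Fin R)) := ⟨⟨_, rfl⟩⟩
      refine ⟨fun a b => ?_⟩
      have : a = b := Subtype.ext (a.2.trans b.2.symm)
      rw [this]
  · have key : ∀ c : Fin n × (Fin r × Fin r), pos n r c ∉ street R r := by
      intro c hc
      rcases hc with hc | hc | hc
      · exact Nat.succ_ne_zero _ hc
      · have := c.2.1.2
        have h' : r < c.2.1.val + 1 := hc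
        omega
      · have h' : (c.1.val * (r + 1) + (c.2.2.val + 1)) % (r + 1) = 0 := hc
        rw [pos_mod] at h'
        omega
    rintro (_ | c) (_ | c') hne
    · exact absurd rfl hne
    · exact Set.disjoint_singleton_right.2 (key c')
    · exact Set.disjoint_singleton_left.2 (key c)
    · refine Set.disjoint_singleton.2 fun h => hne ?_
      have h1 : c.2.1.val + 1 = c'.2.1.val + 1 := congrArg (fun p => p.1.val) h
      have h2 : c.1.val * (r + 1) + (c.2.2.val + 1) = c'.1.val * (r + 1) + (c'.2.2.val + 1) :=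
        congrArg (fun p => p.2.val) h
      have h3 := congrArg (· % (r + 1)) h2
      simp only [pos_mod] at h3
      have h4 : c.1.val * (r + 1) = c'.1.val * (r + 1) := by omega
      have h5 : c.1.val = c'.1.val := Nat.eq_of_mul_eq_mul_right (Nat.succ_pos r) h4
      have : c = c' := by
        refine Prod.ext (Fin.ext h5) (Prod.ext (Fin.ext ?_) (Fin.ext ?_)) <;> omega
      rw [this]
  · have hb : ∀ c : Fin n × (Fin r × Fin r), c.2 ∈ bd r →
        ∃ y ∈ street R r, (grid R).Adj (pos n r c) y := by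
      intro c hc
      have hcb := cell_bound c
      have c1 := c.2.1.2
      have c2 := c.2.2.2
      rcases hc with hc | hc | hc | hc
      · refine ⟨(⟨0, by omega⟩, (pos n r c).2), Or.inl rfl, ?_⟩
        rw [grid_adj]
        left
        refine ⟨Or.inr ?_, rfl⟩
        show 0 + 1 = c.2.1.val + 1
        rw [hc]
      · refine ⟨((pos n r c).1, ⟨c.1.val * (r + 1), by omega⟩),
          Or.inr (Or.inr (Nat.mul_mod_left _ _)), ?_⟩
        rw [grid_adj]
        right
        refine ⟨Or.inr ?_, rfl⟩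
        show c.1.val * (r + 1) + 1 = c.1.val * (r + 1) + (c.2.2.val + 1)
        rw [hc]
      · refine ⟨(⟨r + 1, by omega⟩, (pos n r c).2), Or.inr (Or.inl (Nat.lt_succ_self r)), ?_⟩
        rw [grid_adj]
        left
        refine ⟨Or.inl ?_, rfl⟩
        show c.2.1.val + 1 + 1 = r + 1
        rw [hc]
      · refine ⟨((pos n r c).1, ⟨c.1.val * (r + 1) + (r + 1), by omega⟩),
          Or.inr (Or.inr ?_), ?_⟩
        · show (c.1.val * (r + 1) + (r + 1)) % (r + 1) = 0
          rw [Nat.add_mod_right]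
          exact Nat.mul_mod_left _ _
        · rw [grid_adj]
          right
          refine ⟨Or.inl ?_, rfl⟩
          show c.1.val * (r + 1) + (c.2.2.val + 1) + 1 = c.1.val * (r + 1) + (r + 1)
          omega
    rintro (_ | c) (_ | c') hadj
    · exact absurd hadj (SimpleGraph.irrefl _)
    · obtain ⟨y, hy, h⟩ := hb c' hadj
      exact ⟨y, hy, _, rfl, h.symm⟩
    · obtain ⟨y, hy, h⟩ := hb c hadj
      exact ⟨_, rfl, y, hy, h⟩
    · refine ⟨_, rfl, _, rfl, ?_⟩
      have hadj' : ((⊥ : SimpleGraph (Fin n)) □ grid r).Adj c c' := hadj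
      rw [boxProd_adj] at hadj'
      rcases hadj' with ⟨h, _⟩ | ⟨h, h1⟩
      · exact absurd h (by simp)
      · rw [grid_adj] at h ⊢
        have e1 : (pos n r c).1.val = c.2.1.val + 1 := rfl
        have e2 : (pos n r c').1.val = c'.2.1.val + 1 := rfl
        have e3 : (pos n r c).2.val = c.1.val * (r + 1) + (c.2.2.val + 1) := rfl
        have e4 : (pos n r c').2.val = c'.1.val * (r + 1) + (c'.2.2.val + 1) := rfl
        rw [← h1] at e4
        rw [e1, e2, e3, e4]
        omega

end Vale.Agent.P235.H447
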