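import Vale.Agent.P235.H447.OneDefs
import Vale.Agent.P235.H786.Ball
import Vale.Agent.P235.H141.Mk

/-!
# Full sets (helper447)

Rooted minors inside a set; connected sets which contain a full set are full.
-/

set_option autoImplicit false

namespace Vale.Agent.P235.H447

open SimpleGraph Vale.Agent.P235 Vale.Agent.P235.H134 Vale.Agent.P235.H606 Vale.Agent.P235.H750
open Vale.Agent.P235.H141 Vale.Agent.P235.H786

/-- a model of `T₀` in `G` with all branch sets inside `A`, the one of `t₀` contains `x` -/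
def SM {X V : Type} (T₀ : SimpleGraph X) (t₀ : X) (G : SimpleGraph V) (A : Set V) (x : V) : Prop :=
  ∃ μ : X → Set V, (∀ a, μ a ⊆ A) ∧ (∀ a, (G.induce (μ a)).Connected) ∧
    (∀ a b, a ≠ b → Disjoint (μ a) (μ b)) ∧
    (∀ a b, T₀.Adj a b → ∃ x ∈ μ a, ∃ y ∈ μ b, G.Adj x y) ∧ x ∈ μ t₀

theorem rminor_sm {X V : Type} {T₀ : SimpleGraph X} {t₀ : X} {G : SimpleGraph V} {A : Set V}
    {x : A} : RMinor T₀ t₀ (G.induce A) x ↔ SM T₀ t₀ G A x.1 := by
  constructor
  · rintro ⟨μ, h1, h2, h3, h4⟩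
    refine ⟨fun a => Subtype.val '' μ a, ?_, fun a => conn_coe (h1 a), ?_, ?_, ⟨x, h4, rfl⟩⟩
    · rintro a _ ⟨y, _, rfl⟩
      exact y.2
    · intro a b hab
      rw [Set.disjoint_left]
      rintro _ ⟨y, hy, rfl⟩ ⟨z, hz, e⟩
      obtain rfl := Subtype.ext e
      exact Set.disjoint_left.1 (h2 a b hab) hy hz
    · intro a b hab
      obtain ⟨u, hu, w, hw, h⟩ := h3 a b hab
      exact ⟨u.1, ⟨u, hu, rfl⟩, w.1, ⟨w, hw, rfl⟩, h⟩
  · rintro ⟨μ, h0, h1, h2, h3, h4⟩
    refine ⟨fun a => {y | y.1 ∈ μ a}, fun a => ?_, ?_, ?_, h4⟩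
    · refine H134.connected_of_map (A := G.induce (μ a))
        (fun y => (⟨⟨y.1, h0 a y.2⟩, y.2⟩ : {y : A | y.1 ∈ μ a})) ?_ ?_ (h1 a)
      · rintro ⟨⟨y, hy⟩, hy'⟩
        exact ⟨⟨y, hy'⟩, rfl⟩
      · rintro ⟨y, hy⟩ ⟨z, hz⟩ hyz
        exact Or.inr hyz
    · intro a b hab
      rw [Set.disjoint_left]
      rintro y hy hz
      exact Set.disjoint_left.1 (h2 a b hab) hy hz
    · intro a b hab
      obtain ⟨u, hu, w, hw, h⟩ := h3 a b hab
      exact ⟨⟨u, h0 a hu⟩, hu, ⟨w, h0 b hw⟩, hw, h⟩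

/-- full sets, with all sets inside `G` -/
theorem full_iff {X V : Type} {T₀ : SimpleGraph X} {t₀ : X} {G : SimpleGraph V} {L : Set V} :
    Full T₀ t₀ G L ↔ (G.induce L).Connected ∧ ∀ x ∈ L, SM T₀ t₀ G L x :=
  and_congr_right fun _ => ⟨fun h x hx => rminor_sm.1 (h ⟨x, hx⟩), fun h x =>
    rminor_sm.2 (h x.1 x.2)⟩

theorem closed_all {V : Type} {G : SimpleGraph V} (hG : G.Connected) {S : Set V} {x : V}
    (hx : x ∈ S) (hS : ∀ u ∈ S, ∀ v, G.Adj u v → v ∈ S) (y : V) : y ∈ S := by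
  obtain ⟨w⟩ := hG.preconnected x y
  induction w with
  | nil => exact hx
  | cons h _ ih => exact ih (hS _ hx _ h)

theorem fullMono : FullMonoStmt := by
  intro X V _ T₀ t₀ G L L' hL hLL hL'
  rw [full_iff] at hL ⊢
  refine ⟨hL', fun x hx => ?_⟩
  by_cases hxL : x ∈ L
  · obtain ⟨μ, h0, h1, h2, h3, h4⟩ := hL.2 x hxL
    exact ⟨μ, fun a => (h0 a).trans hLL, h1, h2, h3, h4⟩
  obtain ⟨⟨l, hl⟩⟩ := hL.1.nonempty
  have hw : (⟨x, hx⟩ : L') ∉ {y : L' | y.1 ∈ L} := hxL
  have : ∃ u ∈ off (G.induce L') {y : L' | y.1 ∈ L} ⟨x, hx⟩, ∃ b : L', b.1 ∈ L ∧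
      (G.induce L').Adj u b := by
    by_contra hno
    push Not at hno
    have h := closed_all hL' (off_self hw) (fun u hu v huv => by
      rcases off_cl hu huv with h | h
      · exact h
      · exact absurd huv (hno u hu v h)) ⟨l, hLL hl⟩
    exact off_not h hl
  obtain ⟨u, hu, b, hb, hub⟩ := this
  obtain ⟨μ, h0, h1, h2, h3, h4⟩ := hL.2 b.1 hb
  classical
  set R : Set V := Subtype.val '' off (G.induce L') {y : L' | y.1 ∈ L} ⟨x, hx⟩ with hR
  have hRL : ∀ y ∈ R, y ∉ L := by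
    rintro _ ⟨y, hy, rfl⟩ h
    exact off_not hy h
  have hRc : (G.induce R).Connected := conn_coe (off_conn hw)
  have hR' : R ⊆ L' := by
    rintro _ ⟨y, _, rfl⟩
    exact y.2
  refine ⟨fun a => if a = t₀ then μ t₀ ∪ R else μ a, fun a => ?_, fun a => ?_, fun a b hab => ?_,
    fun a b hab => ?_, ?_⟩
  · by_cases ha : a = t₀
    · simp only [if_pos ha]
      exact Set.union_subset ((h0 t₀).trans hLL) hR'
    · simp only [if_neg ha]
      exact (h0 a).trans hLL
  · show (G.induce (if a = t₀ then μ t₀ ∪ R else μ a)).Connected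
    by_cases ha : a = t₀
    · rw [if_pos ha]
      exact connected_induce_union (h1 t₀).preconnected hRc.preconnected h4
        (⟨u, hu, rfl⟩ : u.1 ∈ R) hub.symm
    · rw [if_neg ha]
      exact h1 a
  · have key : ∀ c, c ≠ t₀ → Disjoint (μ t₀ ∪ R) (μ c) := fun c hc =>
      Set.disjoint_union_left.2 ⟨h2 t₀ c (Ne.symm hc), Set.disjoint_left.2 fun y hy hy' =>
        hRL y hy (h0 c hy')⟩
    by_cases ha : a = t₀
    · have hb : b ≠ t₀ := fun h => hab (ha.trans h.symm)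
      simp only [if_pos ha, if_neg hb]
      exact key b hb
    · by_cases hb : b = t₀
      · simp only [if_pos hb, if_neg ha]
        exact (key a ha).symm
      · simp only [if_neg hb, if_neg ha]
        exact h2 a b hab
  · obtain ⟨y, hy, z, hz, h⟩ := h3 a b hab
    refine ⟨y, ?_, z, ?_, h⟩
    · by_cases ha : a = t₀
      · simp only [if_pos ha]
        exact Or.inl (ha ▸ hy)
      · simp only [if_neg ha]
        exact hy
    · by_cases hb : b = t₀
      · simp only [if_pos hb]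
        exact Or.inl (hb ▸ hz)
      · simp only [if_neg hb]
        exact hz
  · simp only [if_true]
    exact Or.inr ⟨⟨x, hx⟩, off_self hw, rfl⟩

end Vale.Agent.P235.H447
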