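import Vale.Agent.P235.H750.VDefs

/-!
# Gluing at a vertex: the cut between the two halves of `OneStmt` (helper447)

`Full T₀ t₀ G L`: `L` is connected and every vertex of `L` is the root of a rooted minor `(T₀, t₀)`
inside `L`.  `Star T₀ t₀ G N A`: the set `A` contains a connected set `Z` and `N` full sets, all
disjoint, each adjacent to `Z`.
-/

set_option autoImplicit false

namespace Vale.Agent.P235.H447

open SimpleGraph Vale.Agent.P235 Vale.Agent.P235.H134 Vale.Agent.P235.H606 Vale.Agent.P235.H750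

/-- `L` is connected and every vertex of `L` is the root of a rooted minor `(T₀, t₀)` in `L` -/
def Full {X V : Type} (T₀ : SimpleGraph X) (t₀ : X) (G : SimpleGraph V) (L : Set V) : Prop :=
  (G.induce L).Connected ∧ ∀ x : L, RMinor T₀ t₀ (G.induce L) x

/-- a star of `N` full sets inside `A` -/
def Star {X V : Type} (T₀ : SimpleGraph X) (t₀ : X) (G : SimpleGraph V) (N : ℕ) (A : Set V) :
    Prop :=
  ∃ (Z : Set V) (L : Fin N → Set V), (G.induce Z).Connected ∧ (∀ i, Full T₀ t₀ G (L i)) ∧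
    Z ⊆ A ∧ (∀ i, L i ⊆ A) ∧ (∀ i, Disjoint Z (L i)) ∧ (∀ i j, i ≠ j → Disjoint (L i) (L j)) ∧
    ∀ i, ∃ x ∈ Z, ∃ y ∈ L i, G.Adj x y

/-- (ONE-a) graphs without a star of `N` full sets -/
def OneAStmt : Prop :=
  ∀ (X : Type) [Finite X] (T₀ : SimpleGraph X) (t₀ : X), RFree T₀ t₀ → ∀ N r : ℕ, ∃ C : ℝ,
    1 ≤ C ∧ ∀ (V : Type) [Finite V] (G : SimpleGraph V), G.Connected → Kr.NoK r G →
      ¬ Star T₀ t₀ G N Set.univ → DistortionLE G C

/-- connected sets which contain a full set are full -/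
def FullMonoStmt : Prop :=
  ∀ (X V : Type) [Finite V] (T₀ : SimpleGraph X) (t₀ : X) (G : SimpleGraph V) (L L' : Set V),
    Full T₀ t₀ G L → L ⊆ L' → (G.induce L').Connected → Full T₀ t₀ G L'

end Vale.Agent.P235.H447
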